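import Crest.Agent.S0085Aux.Comp68Seed

/-!
A kernel-friendly verifier for seeds of S0085 (helper68).

A seed is given by its dense multilinear expansion `p : MP n` (nested pairs of integers,
`p = (a, b)` meaning `a + x₀ * b`) and the common denominator `N`.
`MP.check n p N` runs a fast Walsh-Hadamard transform and checks that all values are `± N`.
-/

set_option autoImplicit false

namespace Crest.Agent.S0085Aux

open Finset

/-- Dense multilinear polynomials in `n` sign variables with integer coefficients. -/
def MP : ℕ → Type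
  | 0 => ℤ
  | n + 1 => MP n × MP n

namespace MP

/-- the value of a constant polynomial -/
def val (c : MP 0) : ℤ := c

/-- leaf constructor -/
def L (z : ℤ) : MP 0 := z

/-- node constructor: `P a b = a + x₀ * b` -/
def P {n : ℕ} (a b : MP n) : MP (n + 1) := (a, b)

/-- the zero polynomial (to write sparse seeds compactly) -/
def Z : (n : ℕ) → MP n
  | 0 => L 0
  | n + 1 => (Z n, Z n)

/-- integer sign -/
def sgz (b : Bool) : ℤ := if b then 1 else -1

@[simp] lemma sgz_true : sgz true = 1 := rfl
@[simp] lemma sgz_false : sgz false = -1 := rfl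
lemma sgz_not (b : Bool) : sgz (!b) = - sgz b := by cases b <;> rfl
lemma sg_eq_sgz (b : Bool) : sg b = (sgz b : ℝ) := by cases b <;> simp

def eval : (n : ℕ) → MP n → (Fin n → Bool) → ℤ
  | 0, c, _ => val c
  | n + 1, p, x => eval n p.1 (Fin.tail x) + sgz (x 0) * eval n p.2 (Fin.tail x)

def add : (n : ℕ) → MP n → MP n → MP n
  | 0, a, b => Int.add (val a) (val b)
  | n + 1, p, q => (add n p.1 q.1, add n p.2 q.2)

def sub : (n : ℕ) → MP n → MP n → MP n
  | 0, a, b => Int.sub (val a) (val b)
  | n + 1, p, q => (sub n p.1 q.1, sub n p.2 q.2)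

/-- all values are `± N` (fast Walsh-Hadamard transform) -/
def check : (n : ℕ) → MP n → ℤ → Bool
  | 0, c, N => decide (val c = N) || decide (val c = -N)
  | n + 1, p, N => check n (add n p.1 p.2) N && check n (sub n p.1 p.2) N

def isZero : (n : ℕ) → MP n → Bool
  | 0, c => decide (val c = 0)
  | n + 1, p => isZero n p.1 && isZero n p.2

/-- all monomials have degree at most `d` -/
def degLE : (n : ℕ) → MP n → ℕ → Bool
  | 0, _, _ => true
  | n + 1, p, 0 => degLE n p.1 0 && isZero n p.2
  | n + 1, p, d + 1 => degLE n p.1 (d + 1) && degLE n p.2 d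

/-- all monomials have degree of parity `π` (`true` = odd) -/
def par : (n : ℕ) → MP n → Bool → Bool
  | 0, c, π => !π || decide (val c = 0)
  | n + 1, p, π => par n p.1 π && par n p.2 (!π)

/-- constant coefficient -/
def c0 : (n : ℕ) → MP n → ℤ
  | 0, c => val c
  | n + 1, p => c0 n p.1

/-- sum of the linear coefficients -/
def lin : (n : ℕ) → MP n → ℤ
  | 0, _ => 0
  | n + 1, p => lin n p.1 + c0 n p.2

lemma eval_add (n : ℕ) (p q : MP n) (x : Fin n → Bool) :
    eval n (add n p q) x = eval n p x + eval n q x := by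
  induction n with
  | zero => rfl
  | succ n ih =>
    simp only [eval, add, ih]
    ring

lemma eval_sub (n : ℕ) (p q : MP n) (x : Fin n → Bool) :
    eval n (sub n p q) x = eval n p x - eval n q x := by
  induction n with
  | zero => rfl
  | succ n ih =>
    simp only [eval, sub, ih]
    ring

lemma check_sound (n : ℕ) (p : MP n) (N : ℤ) (h : check n p N = true) (x : Fin n → Bool) :
    eval n p x = N ∨ eval n p x = -N := by
  induction n with
  | zero =>
    simp only [check, Bool.or_eq_true, decide_eq_true_eq] at h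
    exact h
  | succ n ih =>
    simp only [check, Bool.and_eq_true] at h
    simp only [eval]
    cases hx : x 0
    · have := ih _ h.2 (Fin.tail x)
      rw [eval_sub] at this
      simpa [sub_eq_add_neg] using this
    · have := ih _ h.1 (Fin.tail x)
      rw [eval_add] at this
      simpa using this

lemma eval_isZero (n : ℕ) (p : MP n) (h : isZero n p = true) (x : Fin n → Bool) :
    eval n p x = 0 := by
  induction n with
  | zero =>
    simp only [isZero, decide_eq_true_eq] at h
    exact h
  | succ n ih =>
    simp only [isZero, Bool.and_eq_true] at h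
    simp only [eval, ih _ h.1, ih _ h.2]
    simp

lemma tail_not (n : ℕ) (x : Fin (n + 1) → Bool) :
    Fin.tail (fun i => !x i) = fun i => !(Fin.tail x i) := rfl

lemma eval_par (n : ℕ) (p : MP n) (π : Bool) (h : par n p π = true) (x : Fin n → Bool) :
    eval n p (fun i => !x i) = (if π then -1 else 1) * eval n p x := by
  induction n generalizing π with
  | zero =>
    simp only [par, Bool.or_eq_true, Bool.not_eq_true', decide_eq_true_eq] at h
    rcases h with h | h
    · subst h
      simp [eval]
    · have h' : eval 0 p x = 0 := h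
      have h'' : eval 0 p (fun i => !x i) = 0 := h
      rw [h', h'']
      simp
  | succ n ih =>
    simp only [par, Bool.and_eq_true] at h
    simp only [eval, tail_not, ih _ _ h.1, ih _ _ h.2, sgz_not]
    cases π <;> simp <;> ring

/-- splitting the cube -/
lemma sum_cons {M : Type*} [AddCommMonoid M] (n : ℕ) (F : (Fin (n + 1) → Bool) → M) :
    ∑ x, F x = ∑ b : Bool, ∑ t : Fin n → Bool, F (Fin.cons b t) := by
  rw [← Fintype.sum_prod_type']
  exact (Equiv.sum_comp (Fin.consEquiv (fun _ => Bool)) F).symm

/-- characters indexed by indicator vectors -/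
def chi (n : ℕ) (τ : Fin n → Bool) (x : Fin n → Bool) : ℤ :=
  ∏ i, (if τ i then sgz (x i) else 1)

def cnt (n : ℕ) (τ : Fin n → Bool) : ℕ := ∑ i, (if τ i then 1 else 0)

lemma chi_cons (n : ℕ) (τ : Fin (n + 1) → Bool) (b : Bool) (t : Fin n → Bool) :
    chi (n + 1) τ (Fin.cons b t) = (if τ 0 then sgz b else 1) * chi n (Fin.tail τ) t := by
  unfold chi
  rw [Fin.prod_univ_succ]
  simp only [Fin.cons_zero, Fin.cons_succ]
  rfl

lemma cnt_succ (n : ℕ) (τ : Fin (n + 1) → Bool) :
    cnt (n + 1) τ = (if τ 0 then 1 else 0) + cnt n (Fin.tail τ) := by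
  unfold cnt
  rw [Fin.sum_univ_succ]
  rfl

lemma eval_cons (n : ℕ) (p : MP (n + 1)) (b : Bool) (t : Fin n → Bool) :
    eval (n + 1) p (Fin.cons b t) = eval n p.1 t + sgz b * eval n p.2 t := by
  simp [eval]

/-- recursion for the character sums -/
lemma charsum_succ (n : ℕ) (p : MP (n + 1)) (τ : Fin (n + 1) → Bool) :
    ∑ x, eval (n + 1) p x * chi (n + 1) τ x
      = 2 * ∑ t, eval n (if τ 0 then p.2 else p.1) t * chi n (Fin.tail τ) t := by
  rw [sum_cons, Fintype.sum_bool, ← Finset.sum_add_distrib, Finset.mul_sum]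
  apply Finset.sum_congr rfl
  intro t _
  rw [eval_cons, eval_cons, chi_cons, chi_cons]
  cases τ 0 <;> simp <;> ring

lemma charsum_degLE (n : ℕ) (p : MP n) (d : ℕ) (h : degLE n p d = true) (τ : Fin n → Bool)
    (hτ : d < cnt n τ) : ∑ x, eval n p x * chi n τ x = 0 := by
  induction n generalizing d with
  | zero => simp [cnt] at hτ
  | succ n ih =>
    rw [charsum_succ]
    rw [cnt_succ] at hτ
    cases hτ0 : τ 0
    · simp only [hτ0, Bool.false_eq_true, if_false, zero_add] at hτ ⊢
      have h1 : degLE n p.1 d = true := by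
        cases d with
        | zero => simp only [degLE, Bool.and_eq_true] at h; exact h.1
        | succ d => simp only [degLE, Bool.and_eq_true] at h; exact h.1
      rw [ih _ _ h1 _ hτ]
      simp
    · simp only [hτ0, if_true] at hτ ⊢
      cases d with
      | zero =>
        simp only [degLE, Bool.and_eq_true] at h
        simp [eval_isZero _ _ h.2]
      | succ d =>
        simp only [degLE, Bool.and_eq_true] at h
        rw [ih _ _ h.2 _ (by omega)]
        simp

lemma sum_eval (n : ℕ) (p : MP n) : ∑ x, eval n p x = 2 ^ n * c0 n p := by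
  induction n with
  | zero => simp [eval, c0]
  | succ n ih =>
    rw [sum_cons, Fintype.sum_bool, ← Finset.sum_add_distrib]
    simp only [eval_cons, sgz_true, sgz_false]
    have : ∀ t : Fin n → Bool, eval n p.1 t + 1 * eval n p.2 t + (eval n p.1 t + -1 * eval n p.2 t)
        = 2 * eval n p.1 t := by intro t; ring
    simp only [this, ← Finset.mul_sum, ih, c0]
    ring

lemma sum_lin (n : ℕ) (p : MP n) :
    ∑ i : Fin n, ∑ x, eval n p x * sgz (x i) = 2 ^ n * lin n p := by
  induction n with
  | zero => simp [lin]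
  | succ n ih =>
    rw [Fin.sum_univ_succ]
    have h0 : ∑ x, eval (n + 1) p x * sgz (x 0) = 2 * (2 ^ n * c0 n p.2) := by
      rw [← sum_eval, sum_cons, Fintype.sum_bool, ← Finset.sum_add_distrib, Finset.mul_sum]
      apply Finset.sum_congr rfl
      intro t _
      simp only [eval_cons, Fin.cons_zero, sgz_true, sgz_false]
      ring
    have h1 : ∀ i : Fin n, ∑ x, eval (n + 1) p x * sgz (x i.succ)
        = 2 * ∑ t, eval n p.1 t * sgz (t i) := by
      intro i
      rw [sum_cons, Fintype.sum_bool, ← Finset.sum_add_distrib, Finset.mul_sum]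
      apply Finset.sum_congr rfl
      intro t _
      simp only [eval_cons, Fin.cons_succ, sgz_true, sgz_false]
      ring
    simp only [h0, h1, ← Finset.mul_sum, ih, lin]
    ring

/-- The Boolean function of a checked polynomial. -/
def toFun (n : ℕ) (p : MP n) : (Fin n → Bool) → Bool := fun x => decide (0 < eval n p x)

lemma sg_toFun (n : ℕ) (p : MP n) (N : ℤ) (hN : 0 < N) (h : check n p N = true)
    (x : Fin n → Bool) : sg (toFun n p x) = (eval n p x : ℝ) / N := by
  have hN' : (N : ℝ) ≠ 0 := by exact_mod_cast hN.ne'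
  rcases check_sound n p N h x with h1 | h1
  · have : toFun n p x = true := by simp [toFun, h1, hN]
    rw [this, h1]
    simp [hN']
  · have : toFun n p x = false := by
      simp only [toFun, h1, decide_eq_false_iff_not, not_lt]
      omega
    rw [this, h1]
    push_cast
    rw [neg_div, div_self hN']
    simp

lemma prod_eq_chi (n : ℕ) (S : Finset (Fin n)) (x : Fin n → Bool) :
    ∏ i ∈ S, sg (x i) = (chi n (fun i => decide (i ∈ S)) x : ℝ) := by
  unfold chi
  push_cast
  rw [← Finset.prod_filter]
  simp only [decide_eq_true_eq, Finset.filter_mem_eq_inter, Finset.univ_inter]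
  apply Finset.prod_congr rfl
  intro i _
  exact sg_eq_sgz _

lemma card_eq_cnt (n : ℕ) (S : Finset (Fin n)) : S.card = cnt n (fun i => decide (i ∈ S)) := by
  unfold cnt
  simp

lemma coef_toFun (n : ℕ) (p : MP n) (N : ℤ) (hN : 0 < N) (h : check n p N = true)
    (S : Finset (Fin n)) :
    coef (toFun n p) S
      = ((∑ x, eval n p x * chi n (fun i => decide (i ∈ S)) x : ℤ) : ℝ) / N := by
  unfold coef
  push_cast
  rw [Finset.sum_div]
  apply Finset.sum_congr rfl
  intro x _
  rw [sg_toFun n p N hN h, prod_eq_chi]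
  ring

lemma isOdd_toFun (n : ℕ) (p : MP n) (N : ℤ) (hN : 0 < N) (h : check n p N = true)
    (hp : par n p true = true) : IsOdd (toFun n p) := by
  intro x
  have h1 := eval_par n p true hp x
  simp only [if_true] at h1
  unfold toFun
  rw [h1]
  rcases check_sound n p N h x with h2 | h2
  · rw [h2]
    have a1 : ¬ (0 < -1 * N) := by omega
    rw [decide_eq_false a1, decide_eq_true hN]
    rfl
  · rw [h2]
    have a1 : (0 < -1 * -N) := by omega
    have a2 : ¬ (0 < -N) := by omega
    rw [decide_eq_true a1, decide_eq_false a2]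
    rfl

lemma lev1_toFun (n : ℕ) (p : MP n) (N : ℤ) (hN : 0 < N) (h : check n p N = true) :
    lev1 (toFun n p) = (lin n p : ℝ) / N := by
  have hN' : (N : ℝ) ≠ 0 := by exact_mod_cast hN.ne'
  unfold lev1 fh
  have h1 : ∀ i : Fin n, coef (toFun n p) {i}
      = ((∑ x, eval n p x * sgz (x i) : ℤ) : ℝ) / N := by
    intro i
    unfold coef
    push_cast
    rw [Finset.sum_div]
    apply Finset.sum_congr rfl
    intro x _
    rw [sg_toFun n p N hN h, Finset.prod_singleton, sg_eq_sgz]
    ring
  simp only [h1, Fintype.card_fin]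
  rw [← Finset.sum_div, ← Finset.sum_div]
  have h2 := sum_lin n p
  have h3 : (∑ i : Fin n, ((∑ x, eval n p x * sgz (x i) : ℤ) : ℝ)) = 2 ^ n * (lin n p : ℝ) := by
    exact_mod_cast h2
  rw [h3]
  field_simp

end MP

/-- **Seed verifier.**  All hypotheses are closed decidable statements. -/
theorem goal85_of_checked_seed (n d : ℕ) (p : MP n) (N : ℤ) (hN : 0 < N)
    (hcheck : MP.check n p N = true) (hpar : MP.par n p true = true)
    (hdeg : MP.degLE n p d = true) (hpos : 0 < MP.lin n p)
    (hL : (d : ℤ) * N ^ 2 < MP.lin n p ^ 2) (C : ℝ) (hC : 0 < C) : Goal85 C := by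
  have hN' : (0 : ℝ) < N := by exact_mod_cast hN
  refine goal85_of_odd_seed (MP.toFun n p) d (MP.isOdd_toFun n p N hN hcheck hpar) ?_ ?_ ?_ C hC
  · intro S hS
    rw [MP.coef_toFun n p N hN hcheck, MP.charsum_degLE n p d hdeg _ (by rwa [← MP.card_eq_cnt])]
    simp
  · rw [MP.lev1_toFun n p N hN hcheck]
    have : (0 : ℝ) < MP.lin n p := by exact_mod_cast hpos
    positivity
  · rw [MP.lev1_toFun n p N hN hcheck, div_pow, lt_div_iff₀ (by positivity)]
    exact_mod_cast hL

end Crest.Agent.S0085Aux
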