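import Mathlib

/-!
Read-once composition of Boolean functions and its effect on the Fourier-Walsh coefficients
(helper68, insurance for S0085).
-/

set_option autoImplicit false

namespace Crest.Agent.S0085Aux

open Finset

/-- The sign of a Boolean: `true ↦ 1`, `false ↦ -1`. -/
noncomputable def sg (b : Bool) : ℝ := if b then 1 else -1

@[simp] lemma sg_true : sg true = 1 := by simp [sg]
@[simp] lemma sg_false : sg false = -1 := by simp [sg]
@[simp] lemma sg_not (b : Bool) : sg (!b) = - sg b := by cases b <;> simp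
@[simp] lemma sg_mul_self (b : Bool) : sg b * sg b = 1 := by cases b <;> simp

lemma sum_bool_sg : ∑ b : Bool, sg b = 0 := by simp

lemma ind_eq (a b : Bool) : (if a = b then (1 : ℝ) else 0) = (1 + sg b * sg a) / 2 := by
  cases a <;> cases b <;> simp

section basic

variable {ι : Type*} [Fintype ι] [DecidableEq ι]

/-- The unnormalised Fourier-Walsh coefficient. -/
noncomputable def coef (f : (ι → Bool) → Bool) (S : Finset ι) : ℝ :=
  ∑ x : ι → Bool, sg (f x) * ∏ i ∈ S, sg (x i)

/-- Character sums. -/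
lemma charsum (T : Finset ι) :
    ∑ z : ι → Bool, ∏ k ∈ T, sg (z k) = if T = ∅ then (2 : ℝ) ^ Fintype.card ι else 0 := by
  have h1 : ∀ z : ι → Bool, ∏ k ∈ T, sg (z k) = ∏ k, (if k ∈ T then sg (z k) else 1) := by
    intro z
    rw [Finset.prod_ite_mem]
    simp
  simp_rw [h1]
  have h2 := (Finset.prod_univ_sum (fun _ : ι => (Finset.univ : Finset Bool))
    (fun k b => if k ∈ T then sg b else (1 : ℝ))).symm
  rw [Fintype.piFinset_univ] at h2
  rw [h2]
  split_ifs with hT
  · subst hT
    simp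
  · obtain ⟨k, hk⟩ := Finset.nonempty_iff_ne_empty.mpr hT
    apply Finset.prod_eq_zero (Finset.mem_univ k)
    simp [hk]

/-- Partial character sums over a level set of `g`. -/
lemma levelsum (g : (ι → Bool) → Bool) (b : Bool) (T : Finset ι) :
    ∑ z : ι → Bool, (if g z = b then (1 : ℝ) else 0) * ∏ k ∈ T, sg (z k)
      = ((if T = ∅ then (2 : ℝ) ^ Fintype.card ι else 0) + sg b * coef g T) / 2 := by
  rw [← charsum T, coef, Finset.mul_sum, ← Finset.sum_add_distrib, Finset.sum_div]
  apply Finset.sum_congr rfl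
  intro z _
  rw [ind_eq]
  ring

end basic

section comp

variable {ι : Type*} [Fintype ι] [DecidableEq ι]
variable {κ : ι → Type*} [∀ i, Fintype (κ i)] [∀ i, DecidableEq (κ i)]

/-- Read-once composition: the outer function `f` applied to the inner functions `g i`, which
read pairwise disjoint blocks of variables. -/
def comp (f : (ι → Bool) → Bool) (g : ∀ i, (κ i → Bool) → Bool) :
    ((Σ i, κ i) → Bool) → Bool :=
  fun x => f (fun i => g i (fun k => x ⟨i, k⟩))

/-- The part of `U` in block `i`. -/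
def fib (U : Finset (Σ i, κ i)) (i : ι) : Finset (κ i) :=
  Finset.univ.filter (fun k => (⟨i, k⟩ : Σ i, κ i) ∈ U)

lemma mem_fib (U : Finset (Σ i, κ i)) (i : ι) (k : κ i) :
    k ∈ fib U i ↔ (⟨i, k⟩ : Σ i, κ i) ∈ U := by simp [fib]

lemma eq_sigma_fib (U : Finset (Σ i, κ i)) : U = (Finset.univ : Finset ι).sigma (fib U) := by
  ext ⟨i, k⟩
  simp [fib]

lemma prod_eq_prod_fib (U : Finset (Σ i, κ i)) (x : (Σ i, κ i) → Bool) :
    ∏ p ∈ U, sg (x p) = ∏ i, ∏ k ∈ fib U i, sg (x ⟨i, k⟩) := by
  conv_lhs => rw [eq_sigma_fib U]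
  rw [Finset.prod_sigma]

lemma card_eq_sum_fib (U : Finset (Σ i, κ i)) : U.card = ∑ i, (fib U i).card := by
  conv_lhs => rw [eq_sigma_fib U]
  rw [Finset.card_sigma]

lemma sg_eq_sum_ind (f : (ι → Bool) → Bool) (y₀ : ι → Bool) :
    sg (f y₀) = ∑ y : ι → Bool, sg (f y) * ∏ i, (if y₀ i = y i then (1 : ℝ) else 0) := by
  rw [Finset.sum_eq_single y₀]
  · simp
  · intro y _ hy
    have : ∃ i, y₀ i ≠ y i := by
      by_contra h
      push Not at h
      exact hy (funext h).symm
    obtain ⟨i, hi⟩ := this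
    rw [Finset.prod_eq_zero (Finset.mem_univ i) (by simp [hi])]
    simp
  · intro h
    exact absurd (Finset.mem_univ _) h

lemma coef_comp_raw (f : (ι → Bool) → Bool) (g : ∀ i, (κ i → Bool) → Bool)
    (U : Finset (Σ i, κ i)) :
    coef (comp f g) U = ∑ y : ι → Bool, sg (f y) *
      ∏ i, ∑ z : κ i → Bool, (if g i z = y i then (1 : ℝ) else 0) * ∏ k ∈ fib U i, sg (z k) := by
  have h1 : coef (comp f g) U = ∑ X : (∀ i, κ i → Bool),
      sg (f (fun i => g i (X i))) * ∏ i, ∏ k ∈ fib U i, sg (X i k) := by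
    unfold coef comp
    simp_rw [prod_eq_prod_fib]
    exact Equiv.sum_comp (Equiv.piCurry (fun (i : ι) (_ : κ i) => Bool))
      (fun X : (∀ i, κ i → Bool) => sg (f (fun i => g i (X i))) * ∏ i, ∏ k ∈ fib U i, sg (X i k))
  rw [h1]
  have h2 : ∀ X : (∀ i, κ i → Bool),
      sg (f (fun i => g i (X i))) * ∏ i, ∏ k ∈ fib U i, sg (X i k)
      = ∑ y : ι → Bool, sg (f y) *
        ∏ i, ((if g i (X i) = y i then (1 : ℝ) else 0) * ∏ k ∈ fib U i, sg (X i k)) := by
    intro X
    rw [sg_eq_sum_ind f (fun i => g i (X i)), Finset.sum_mul]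
    apply Finset.sum_congr rfl
    intro y _
    rw [Finset.prod_mul_distrib]
    ring
  simp_rw [h2]
  rw [Finset.sum_comm]
  apply Finset.sum_congr rfl
  intro y _
  rw [← Finset.mul_sum]
  congr 1
  have h3 := (Finset.prod_univ_sum (fun i : ι => (Finset.univ : Finset (κ i → Bool)))
    (fun i z => (if g i z = y i then (1 : ℝ) else 0) * ∏ k ∈ fib U i, sg (z k))).symm
  rw [Fintype.piFinset_univ] at h3
  exact h3

/-- The set of blocks met by `U`. -/
def proj (U : Finset (Σ i, κ i)) : Finset ι :=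
  Finset.univ.filter (fun i => fib U i ≠ ∅)

lemma mem_proj (U : Finset (Σ i, κ i)) (i : ι) : i ∈ proj U ↔ fib U i ≠ ∅ := by simp [proj]

/-- Exact formula for the coefficients of a read-once composition with balanced inner
functions (unnormalised). -/
theorem coef_comp (f : (ι → Bool) → Bool) (g : ∀ i, (κ i → Bool) → Bool)
    (hbal : ∀ i, coef (g i) ∅ = 0) (U : Finset (Σ i, κ i)) :
    coef (comp f g) U = coef f (proj U) *
      ∏ i, (if fib U i = ∅ then (2 : ℝ) ^ Fintype.card (κ i) / 2
        else coef (g i) (fib U i) / 2) := by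
  rw [coef_comp_raw, coef, Finset.sum_mul]
  apply Finset.sum_congr rfl
  intro y _
  rw [mul_assoc]
  congr 1
  have h1 : ∏ i ∈ proj U, sg (y i) = ∏ i, (if fib U i = ∅ then (1 : ℝ) else sg (y i)) := by
    unfold proj
    rw [Finset.prod_filter]
    apply Finset.prod_congr rfl
    intro i _
    by_cases h : fib U i = ∅ <;> simp [h]
  rw [h1, ← Finset.prod_mul_distrib]
  apply Finset.prod_congr rfl
  intro i _
  rw [levelsum]
  by_cases h : fib U i = ∅
  · simp [h, hbal i]
  · simp [h]
    ring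

end comp

section normalised

variable {ι : Type*} [Fintype ι] [DecidableEq ι]

/-- The normalised Fourier-Walsh coefficient. -/
noncomputable def fh (f : (ι → Bool) → Bool) (S : Finset ι) : ℝ :=
  coef f S / 2 ^ Fintype.card ι

/-- The sum of the singleton coefficients. -/
noncomputable def lev1 (f : (ι → Bool) → Bool) : ℝ := ∑ i, fh f {i}

/-- Odd (self-anti-dual) Boolean functions. -/
def IsOdd (f : (ι → Bool) → Bool) : Prop := ∀ x : ι → Bool, f (fun i => !x i) = !f x

/-- The involution flipping all inputs. -/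
def flipEquiv (ι : Type*) : (ι → Bool) ≃ (ι → Bool) where
  toFun x := fun i => !x i
  invFun x := fun i => !x i
  left_inv x := by funext i; simp
  right_inv x := by funext i; simp

lemma IsOdd.coef_empty {f : (ι → Bool) → Bool} (hf : IsOdd f) : coef f ∅ = 0 := by
  have h := Equiv.sum_comp (flipEquiv ι) (fun x : ι → Bool => sg (f x))
  have h2 : ∀ x : ι → Bool, sg (f (flipEquiv ι x)) = - sg (f x) := by
    intro x
    have : f (flipEquiv ι x) = !f x := hf x
    rw [this, sg_not]
  simp_rw [h2] at h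
  rw [Finset.sum_neg_distrib] at h
  unfold coef
  simp only [Finset.prod_empty, mul_one]
  linarith

lemma IsOdd.exists_ne {f : (ι → Bool) → Bool} (hf : IsOdd f) : ∃ x y, f x ≠ f y := by
  refine ⟨fun _ => true, fun i => !true, ?_⟩
  rw [hf (fun _ => true)]
  cases f (fun _ => true) <;> simp

variable {κ : ι → Type*} [∀ i, Fintype (κ i)] [∀ i, DecidableEq (κ i)]

lemma IsOdd.comp {f : (ι → Bool) → Bool} {g : ∀ i, (κ i → Bool) → Bool}
    (hf : IsOdd f) (hg : ∀ i, IsOdd (g i)) : IsOdd (comp f g) := by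
  intro x
  unfold Crest.Agent.S0085Aux.comp
  have : (fun i => g i (fun k => !x ⟨i, k⟩)) = fun i => !(g i (fun k => x ⟨i, k⟩)) := by
    funext i
    exact hg i (fun k => x ⟨i, k⟩)
  rw [this]
  exact hf _

/-- Exact formula for the normalised coefficients of a read-once composition with balanced
inner functions. -/
theorem fh_comp (f : (ι → Bool) → Bool) (g : ∀ i, (κ i → Bool) → Bool)
    (hbal : ∀ i, coef (g i) ∅ = 0) (U : Finset (Σ i, κ i)) :
    fh (comp f g) U = fh f (proj U) *
      ∏ i, (if fib U i = ∅ then (1 : ℝ) else fh (g i) (fib U i)) := by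
  unfold fh
  rw [coef_comp f g hbal U, Fintype.card_sigma, ← Finset.prod_pow_eq_pow_sum]
  have h1 : ∏ i, (if fib U i = ∅ then (2 : ℝ) ^ Fintype.card (κ i) / 2
        else coef (g i) (fib U i) / 2)
      = ∏ i, ((2 : ℝ) ^ Fintype.card (κ i) * (1 / 2) *
          (if fib U i = ∅ then (1 : ℝ) else coef (g i) (fib U i) / 2 ^ Fintype.card (κ i))) := by
    apply Finset.prod_congr rfl
    intro i _
    have : (2 : ℝ) ^ Fintype.card (κ i) ≠ 0 := by positivity
    by_cases h : fib U i = ∅
    · simp [h]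
      ring
    · simp [h]
      field_simp
  rw [h1, Finset.prod_mul_distrib, Finset.prod_mul_distrib, Finset.prod_const, Finset.card_univ]
  have h2 : (∏ i, (2 : ℝ) ^ Fintype.card (κ i)) ≠ 0 := by positivity
  have h3 : ((2 : ℝ) ^ Fintype.card ι) ≠ 0 := by positivity
  rw [one_div, inv_pow]
  field_simp

lemma fib_singleton_self (i : ι) (k : κ i) : fib ({⟨i, k⟩} : Finset (Σ i, κ i)) i = {k} := by
  ext k'
  simp [mem_fib]

lemma fib_singleton_of_ne (i j : ι) (k : κ i) (hj : j ≠ i) :
    fib ({⟨i, k⟩} : Finset (Σ i, κ i)) j = ∅ := by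
  ext k'
  simp [mem_fib, hj]

lemma proj_singleton (i : ι) (k : κ i) : proj ({⟨i, k⟩} : Finset (Σ i, κ i)) = {i} := by
  ext j
  rw [mem_proj, Finset.mem_singleton]
  constructor
  · intro h
    by_contra hj
    exact h (fib_singleton_of_ne i j k hj)
  · rintro rfl
    rw [fib_singleton_self]
    simp

theorem fh_comp_singleton (f : (ι → Bool) → Bool) (g : ∀ i, (κ i → Bool) → Bool)
    (hbal : ∀ i, coef (g i) ∅ = 0) (i : ι) (k : κ i) :
    fh (comp f g) {⟨i, k⟩} = fh f {i} * fh (g i) {k} := by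
  rw [fh_comp f g hbal, proj_singleton, Finset.prod_eq_single i]
  · rw [fib_singleton_self]
    simp
  · intro j _ hj
    rw [fib_singleton_of_ne i j k hj]
    simp
  · intro h
    exact absurd (Finset.mem_univ _) h

/-- The level-one sum of a read-once composition. -/
theorem lev1_comp (f : (ι → Bool) → Bool) (g : ∀ i, (κ i → Bool) → Bool)
    (hbal : ∀ i, coef (g i) ∅ = 0) :
    lev1 (comp f g) = ∑ i, fh f {i} * lev1 (g i) := by
  unfold lev1
  rw [Fintype.sum_sigma]
  apply Finset.sum_congr rfl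
  intro i _
  rw [Finset.mul_sum]
  apply Finset.sum_congr rfl
  intro k _
  exact fh_comp_singleton f g hbal i k

/-- The degree of a read-once composition. -/
theorem coef_comp_eq_zero (f : (ι → Bool) → Bool) (g : ∀ i, (κ i → Bool) → Bool)
    (hbal : ∀ i, coef (g i) ∅ = 0) (e : ι → ℕ) (D : ℕ)
    (hg : ∀ i (T : Finset (κ i)), e i < T.card → coef (g i) T = 0)
    (hf : ∀ S : Finset ι, coef f S ≠ 0 → ∑ i ∈ S, e i ≤ D)
    (U : Finset (Σ i, κ i)) (hU : D < U.card) : coef (comp f g) U = 0 := by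
  by_contra hne
  rw [coef_comp f g hbal U] at hne
  have h1 : coef f (proj U) ≠ 0 := left_ne_zero_of_mul hne
  have h2 := right_ne_zero_of_mul hne
  rw [Finset.prod_ne_zero_iff] at h2
  have h3 : ∀ i, (fib U i).card ≤ if i ∈ proj U then e i else 0 := by
    intro i
    by_cases h : fib U i = ∅
    · simp [h]
    · have hi : i ∈ proj U := (mem_proj U i).mpr h
      have := h2 i (Finset.mem_univ i)
      simp only [h, if_false] at this
      simp only [hi, if_true]
      by_contra hlt
      push Not at hlt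
      exact this (by rw [hg i _ hlt]; simp)
  have h4 : U.card ≤ ∑ i ∈ proj U, e i := by
    rw [card_eq_sum_fib]
    calc ∑ i, (fib U i).card ≤ ∑ i, (if i ∈ proj U then e i else 0) :=
          Finset.sum_le_sum (fun i _ => h3 i)
      _ = ∑ i ∈ proj U, e i := by
          rw [Finset.sum_ite_mem]
          simp
  have := hf _ h1
  omega

end normalised

section bundled

/-- `HasOdd L d`: some odd Boolean function on a finite cube has degree at most `d` and
level-one sum `L`. -/
def HasOdd (L : ℝ) (d : ℕ) : Prop :=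
  ∃ (ι : Type) (_ : Fintype ι) (_ : DecidableEq ι) (f : (ι → Bool) → Bool),
    IsOdd f ∧ (∀ S : Finset ι, d < S.card → coef f S = 0) ∧ lev1 f = L

/-- General (weighted) composition step. -/
theorem HasOdd.compose {ι : Type} [Fintype ι] [DecidableEq ι] (f : (ι → Bool) → Bool)
    (hf : IsOdd f) (L : ι → ℝ) (e : ι → ℕ) (D : ℕ) (h : ∀ i, HasOdd (L i) (e i))
    (hD : ∀ S : Finset ι, coef f S ≠ 0 → ∑ i ∈ S, e i ≤ D) :
    HasOdd (∑ i, fh f {i} * L i) D := by
  choose κ inst1 inst2 g hg1 hg2 hg3 using h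
  refine ⟨Σ i, κ i, inferInstance, inferInstance, comp f g, hf.comp hg1, ?_, ?_⟩
  · intro U hU
    exact coef_comp_eq_zero f g (fun i => (hg1 i).coef_empty) e D hg2 hD U hU
  · rw [lev1_comp f g (fun i => (hg1 i).coef_empty)]
    apply Finset.sum_congr rfl
    intro i _
    rw [hg3 i]

theorem HasOdd.mul {L₁ L₂ : ℝ} {d₁ d₂ : ℕ} (h₁ : HasOdd L₁ d₁) (h₂ : HasOdd L₂ d₂) :
    HasOdd (L₁ * L₂) (d₁ * d₂) := by
  obtain ⟨ι, i1, i2, f, hf1, hf2, hf3⟩ := h₁
  have := HasOdd.compose f hf1 (fun _ => L₂) (fun _ => d₂) (d₁ * d₂) (fun _ => h₂) (by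
    intro S hS
    have hc : S.card ≤ d₁ := by
      by_contra hlt
      push Not at hlt
      exact hS (hf2 S hlt)
    rw [Finset.sum_const, smul_eq_mul]
    exact Nat.mul_le_mul_right _ hc)
  rw [← Finset.sum_mul] at this
  have h4 : ∑ i, fh f {i} = L₁ := hf3
  rwa [h4] at this

theorem HasOdd.pow {L : ℝ} {d : ℕ} (h : HasOdd L d) (k : ℕ) : HasOdd (L ^ (k + 1)) (d ^ (k + 1)) := by
  induction k with
  | zero => simpa using h
  | succ k ih =>
    rw [pow_succ L (k + 1), pow_succ d (k + 1)]
    exact ih.mul h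

/-- Reindexing along an equivalence of the index types. -/
lemma coef_reindex {ι κ : Type*} [Fintype ι] [DecidableEq ι] [Fintype κ] [DecidableEq κ]
    (e : ι ≃ κ) (f : (ι → Bool) → Bool) (S : Finset κ) :
    coef (fun x : κ → Bool => f (fun i => x (e i))) S = coef f (S.map e.symm.toEmbedding) := by
  unfold coef
  have h := Equiv.sum_comp (Equiv.arrowCongr e.symm (Equiv.refl Bool))
    (fun y : ι → Bool => sg (f y) * ∏ i ∈ S.map e.symm.toEmbedding, sg (y i))
  rw [← h]
  apply Finset.sum_congr rfl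
  intro x _
  rw [Finset.prod_map]
  have h1 : (Equiv.arrowCongr e.symm (Equiv.refl Bool)) x = fun i => x (e i) := by
    funext i
    simp [Equiv.arrowCongr]
  rw [h1]
  simp

theorem HasOdd.exists_fin {L : ℝ} {d : ℕ} (h : HasOdd L d) :
    ∃ n : ℕ, ∃ f : (Fin n → Bool) → Bool, (∃ x y, f x ≠ f y) ∧
      (∀ S : Finset (Fin n), d < S.card → coef f S = 0) ∧ lev1 f = L := by
  obtain ⟨ι, i1, i2, f, hf1, hf2, hf3⟩ := h
  let e : ι ≃ Fin (Fintype.card ι) := Fintype.equivFin ι
  refine ⟨Fintype.card ι, fun x => f (fun i => x (e i)), ?_, ?_, ?_⟩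
  · have hodd : IsOdd (fun x : Fin (Fintype.card ι) → Bool => f (fun i => x (e i))) := by
      intro x
      exact hf1 (fun i => x (e i))
    exact hodd.exists_ne
  · intro S hS
    rw [coef_reindex]
    apply hf2
    rwa [Finset.card_map]
  · rw [← hf3]
    unfold lev1 fh
    rw [Fintype.card_fin]
    rw [← Equiv.sum_comp e]
    apply Finset.sum_congr rfl
    intro i _
    rw [coef_reindex]
    simp

/-- The conclusion of S0085 from one odd seed. -/
theorem S0085_of_hasOdd {L : ℝ} {d : ℕ} (h : HasOdd L d) (hL : 0 < L) (hd : (d : ℝ) < L ^ 2)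
    (C : ℝ) (hC : 0 < C) :
    ∃ n : ℕ, ∃ f : (Fin n → Bool) → Bool, ∃ d : ℕ,
      (∃ x y, f x ≠ f y) ∧
      (∀ S : Finset (Fin n), d < S.card →
        ∑ x : Fin n → Bool, ((if f x then (1 : ℝ) else -1) *
          ∏ i ∈ S, (if x i then (1 : ℝ) else -1)) = 0) ∧
      C * Real.sqrt d <
        ∑ i : Fin n, (∑ x : Fin n → Bool, ((if f x then (1 : ℝ) else -1) *
          (if x i then (1 : ℝ) else -1))) / 2 ^ n := by
  have hs : Real.sqrt d < L := by
    rw [Real.sqrt_lt' hL]
    exact hd
  have hr : Real.sqrt d / L < 1 := by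
    rw [div_lt_one hL]
    exact hs
  have hr0 : 0 ≤ Real.sqrt d / L := by positivity
  obtain ⟨k, hk⟩ := exists_pow_lt_of_lt_one (show 0 < 1 / C by positivity) hr
  obtain ⟨n, f, hne, hdeg, hlev⟩ := (h.pow k).exists_fin
  refine ⟨n, f, d ^ (k + 1), hne, ?_, ?_⟩
  · intro S hS
    exact hdeg S hS
  · have h1 : ∑ i : Fin n, (∑ x : Fin n → Bool, ((if f x then (1 : ℝ) else -1) *
          (if x i then (1 : ℝ) else -1))) / 2 ^ n = lev1 f := by
      unfold lev1 fh coef
      rw [Fintype.card_fin]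
      apply Finset.sum_congr rfl
      intro i _
      congr 1
      apply Finset.sum_congr rfl
      intro x _
      rw [Finset.prod_singleton]
      rfl
    rw [h1, hlev]
    have h2 : Real.sqrt ((d ^ (k + 1) : ℕ) : ℝ) = Real.sqrt d ^ (k + 1) := by
      push_cast
      rw [Real.sqrt_eq_iff_mul_self_eq (by positivity) (by positivity)]
      rw [← mul_pow, Real.mul_self_sqrt (by positivity)]
    rw [h2]
    have h3 : (Real.sqrt d / L) ^ (k + 1) < 1 / C := by
      calc (Real.sqrt d / L) ^ (k + 1) = (Real.sqrt d / L) ^ k * (Real.sqrt d / L) := pow_succ _ _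
        _ ≤ (Real.sqrt d / L) ^ k * 1 := by
            apply mul_le_mul_of_nonneg_left hr.le (by positivity)
        _ < 1 / C := by rw [mul_one]; exact hk
    rw [div_pow, div_lt_div_iff₀ (by positivity) hC] at h3
    linarith

end bundled

end Crest.Agent.S0085Aux
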