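import Crest.Agent.S0085Aux.Comp68

/-!
User-facing forms of the seed criterion for S0085 (helper68).
-/

set_option autoImplicit false

namespace Crest.Agent.S0085Aux

open Finset

/-- The conclusion of S0085 (for one `C`). -/
def Goal85 (C : ℝ) : Prop :=
    ∃ n : ℕ, ∃ f : (Fin n → Bool) → Bool, ∃ d : ℕ,
      (∃ x y, f x ≠ f y) ∧
      (∀ S : Finset (Fin n), d < S.card →
        ∑ x : Fin n → Bool, ((if f x then (1 : ℝ) else -1) *
          ∏ i ∈ S, (if x i then (1 : ℝ) else -1)) = 0) ∧
      C * Real.sqrt d <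
        ∑ i : Fin n, (∑ x : Fin n → Bool, ((if f x then (1 : ℝ) else -1) *
          (if x i then (1 : ℝ) else -1))) / 2 ^ n

/-- (B) One odd seed on an arbitrary finite index type. -/
theorem goal85_of_odd_seed {ι : Type} [Fintype ι] [DecidableEq ι] (f : (ι → Bool) → Bool) (d : ℕ)
    (hodd : ∀ x : ι → Bool, f (fun i => !x i) = !f x)
    (hdeg : ∀ S : Finset ι, d < S.card → coef f S = 0)
    (hpos : 0 < lev1 f) (hL : (d : ℝ) < lev1 f ^ 2) (C : ℝ) (hC : 0 < C) : Goal85 C :=
  S0085_of_hasOdd (L := lev1 f) (d := d) ⟨ι, inferInstance, inferInstance, f, hodd, hdeg, rfl⟩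
    hpos hL C hC

section oddize

variable {ι : Type*} [Fintype ι] [DecidableEq ι]

/-- Odd-ization `z * f (z x)`; the new variable is `none`. -/
def oddize (f : (ι → Bool) → Bool) : (Option ι → Bool) → Bool :=
  fun x => (f (fun i => (x (some i) == x none))) == x none

lemma sg_beq (a b : Bool) : sg (a == b) = sg a * sg b := by
  cases a <;> cases b <;> simp

lemma beq_beq_self : ∀ a z : Bool, ((a == z) == z) = a := by decide
lemma not_beq_not' : ∀ a z : Bool, ((!a) == (!z)) = (a == z) := by decide
lemma beq_not' : ∀ a z : Bool, (a == (!z)) = !(a == z) := by decide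

lemma isOdd_oddize (f : (ι → Bool) → Bool) : IsOdd (oddize f) := by
  intro x
  unfold oddize
  have h : (fun i => ((!x (some i)) == (!x none))) = fun i => (x (some i) == x none) := by
    funext i
    exact not_beq_not' _ _
  show ((f fun i => ((!x (some i)) == (!x none))) == (!x none)) = _
  rw [h, beq_not']

/-- The points of the cube over `Option ι` as pairs. -/
def optEquiv (ι : Type*) : (Option ι → Bool) ≃ Bool × (ι → Bool) where
  toFun x := (x none, fun i => x (some i))
  invFun p := fun o => Option.casesOn o p.1 p.2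
  left_inv x := by funext o; cases o <;> rfl
  right_inv p := by rfl

/-- multiplication of all coordinates by the sign `z`. -/
def twist (ι : Type*) (z : Bool) : (ι → Bool) ≃ (ι → Bool) where
  toFun x := fun i => (x i == z)
  invFun x := fun i => (x i == z)
  left_inv x := by funext i; exact beq_beq_self _ _
  right_inv x := by funext i; exact beq_beq_self _ _

lemma coef_oddize_aux (f : (ι → Bool) → Bool) (S : Finset ι) (m : ℕ) :
    ∑ z : Bool, ∑ x : ι → Bool, sg (f (fun i => (x i == z))) * sg z * (sg z ^ m * ∏ i ∈ S, sg (x i))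
      = (∑ z : Bool, sg z ^ (1 + m + S.card)) * coef f S := by
  rw [Finset.sum_mul]
  apply Finset.sum_congr rfl
  intro z _
  unfold coef
  rw [Finset.mul_sum]
  rw [← Equiv.sum_comp (twist ι z)
    (fun y : ι → Bool => sg z ^ (1 + m + S.card) * (sg (f y) * ∏ i ∈ S, sg (y i)))]
  apply Finset.sum_congr rfl
  intro x _
  have h1 : ∀ i, (twist ι z) x i = (x i == z) := fun i => rfl
  have h2 : (twist ι z) x = fun i => (x i == z) := rfl
  simp_rw [h1, sg_beq]
  rw [h2, Finset.prod_mul_distrib, Finset.prod_const]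
  have h3 : sg z ^ (1 + m + S.card) * sg z ^ S.card = sg z * sg z ^ m := by
    have : sg z ^ S.card * sg z ^ S.card = 1 := by
      rw [← mul_pow, sg_mul_self, one_pow]
    rw [pow_add, pow_add, pow_one, mul_assoc, this, mul_one]
  calc sg (f fun i => x i == z) * sg z * (sg z ^ m * ∏ i ∈ S, sg (x i))
      = (sg z * sg z ^ m) * (sg (f fun i => x i == z) * ∏ i ∈ S, sg (x i)) := by ring
    _ = _ := by rw [← h3]; ring

/-- coefficients of the odd-ization on sets not containing the new variable. -/
lemma coef_oddize_some (f : (ι → Bool) → Bool) (S : Finset ι) :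
    coef (oddize f) (S.map Function.Embedding.some)
      = (∑ z : Bool, sg z ^ (1 + 0 + S.card)) * coef f S := by
  rw [← coef_oddize_aux]
  unfold coef oddize
  rw [← Equiv.sum_comp (optEquiv ι).symm, Fintype.sum_prod_type]
  apply Finset.sum_congr rfl
  intro z _
  apply Finset.sum_congr rfl
  intro x _
  rw [Finset.prod_map, sg_beq]
  simp [optEquiv]

/-- coefficients of the odd-ization on sets containing the new variable. -/
lemma coef_oddize_none (f : (ι → Bool) → Bool) (S : Finset ι) :
    coef (oddize f) (insert none (S.map Function.Embedding.some))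
      = (∑ z : Bool, sg z ^ (1 + 1 + S.card)) * coef f S := by
  rw [← coef_oddize_aux]
  unfold coef oddize
  rw [← Equiv.sum_comp (optEquiv ι).symm, Fintype.sum_prod_type]
  apply Finset.sum_congr rfl
  intro z _
  apply Finset.sum_congr rfl
  intro x _
  rw [Finset.prod_insert (by simp), Finset.prod_map, sg_beq]
  simp [optEquiv]

lemma sum_sg_pow_even (m : ℕ) (hm : Even m) : ∑ z : Bool, sg z ^ m = 2 := by
  rw [Fintype.sum_bool, sg_true, sg_false, one_pow, hm.neg_one_pow]
  norm_num

lemma sum_sg_pow_odd (m : ℕ) (hm : Odd m) : ∑ z : Bool, sg z ^ m = 0 := by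
  rw [Fintype.sum_bool, sg_true, sg_false, one_pow, hm.neg_one_pow]
  norm_num

/-- Every finite set of `Option ι` is of one of the two forms. -/
lemma option_finset_cases (T : Finset (Option ι)) :
    (∃ S : Finset ι, T = S.map Function.Embedding.some ∧ T.card = S.card) ∨
    (∃ S : Finset ι, T = insert none (S.map Function.Embedding.some) ∧ T.card = S.card + 1) := by
  by_cases h : none ∈ T
  · right
    refine ⟨Finset.eraseNone T, ?_, ?_⟩
    · rw [Finset.map_some_eraseNone, Finset.insert_erase h]
    · have h1 : T = insert none ((Finset.eraseNone T).map Function.Embedding.some) := by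
        rw [Finset.map_some_eraseNone, Finset.insert_erase h]
      conv_lhs => rw [h1]
      rw [Finset.card_insert_of_notMem (by simp), Finset.card_map]
  · left
    refine ⟨Finset.eraseNone T, ?_, ?_⟩
    · rw [Finset.map_some_eraseNone, Finset.erase_eq_of_notMem h]
    · have h1 : T = ((Finset.eraseNone T).map Function.Embedding.some) := by
        rw [Finset.map_some_eraseNone, Finset.erase_eq_of_notMem h]
      conv_lhs => rw [h1]
      rw [Finset.card_map]

lemma coef_oddize_even (f : (ι → Bool) → Bool) (T : Finset (Option ι)) (hT : Even T.card) :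
    coef (oddize f) T = 0 := by
  rcases option_finset_cases T with ⟨S, h1, h2⟩ | ⟨S, h1, h2⟩
  · rw [h1, coef_oddize_some, sum_sg_pow_odd, zero_mul]
    rw [h2] at hT
    rw [add_zero, add_comm]
    exact hT.add_one
  · rw [h1, coef_oddize_none, sum_sg_pow_odd, zero_mul]
    rw [h2] at hT
    have : 1 + 1 + S.card = (S.card + 1) + 1 := by ring
    rw [this]
    exact hT.add_one

lemma coef_oddize_deg (f : (ι → Bool) → Bool) (d : ℕ)
    (hdeg : ∀ S : Finset ι, d < S.card → coef f S = 0)
    (T : Finset (Option ι)) (hT : d + 1 < T.card) : coef (oddize f) T = 0 := by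
  rcases option_finset_cases T with ⟨S, h1, h2⟩ | ⟨S, h1, h2⟩
  · rw [h1, coef_oddize_some, hdeg S (by omega), mul_zero]
  · rw [h1, coef_oddize_none, hdeg S (by omega), mul_zero]

lemma coef_oddize_deg_odd (f : (ι → Bool) → Bool) (d : ℕ) (hd : Odd d)
    (hdeg : ∀ S : Finset ι, d < S.card → coef f S = 0)
    (T : Finset (Option ι)) (hT : d < T.card) : coef (oddize f) T = 0 := by
  by_cases h : T.card = d + 1
  · apply coef_oddize_even
    rw [h]
    exact hd.add_one
  · exact coef_oddize_deg f d hdeg T (by omega)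

lemma lev1_oddize (f : (ι → Bool) → Bool) : lev1 (oddize f) = fh f ∅ + lev1 f := by
  unfold lev1
  rw [Fintype.sum_option]
  congr 1
  · unfold fh
    have h1 : ({none} : Finset (Option ι))
        = insert none ((∅ : Finset ι).map Function.Embedding.some) := by simp
    rw [h1, coef_oddize_none, sum_sg_pow_even _ (by simp), Fintype.card_option, pow_succ]
    have : (2 : ℝ) ^ Fintype.card ι ≠ 0 := by positivity
    field_simp
  · apply Finset.sum_congr rfl
    intro i _
    unfold fh
    have h1 : ({some i} : Finset (Option ι))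
        = (({i} : Finset ι).map Function.Embedding.some) := by simp
    rw [h1, coef_oddize_some, sum_sg_pow_even _ (by simp), Fintype.card_option, pow_succ]
    have : (2 : ℝ) ^ Fintype.card ι ≠ 0 := by positivity
    field_simp

/-- The dual function `x ↦ ¬ f (¬ x)`. -/
def dual (f : (ι → Bool) → Bool) : (ι → Bool) → Bool := fun x => !f (fun i => !x i)

lemma coef_dual (f : (ι → Bool) → Bool) (S : Finset ι) :
    coef (dual f) S = (-1) ^ (S.card + 1) * coef f S := by
  unfold coef dual
  rw [Finset.mul_sum, ← Equiv.sum_comp (flipEquiv ι)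
    (fun y : ι → Bool => (-1 : ℝ) ^ (S.card + 1) * (sg (f y) * ∏ i ∈ S, sg (y i)))]
  apply Finset.sum_congr rfl
  intro x _
  have h1 : (flipEquiv ι) x = fun i => !x i := rfl
  have h2 : ∀ i, (flipEquiv ι) x i = !x i := fun i => rfl
  simp_rw [h2, sg_not]
  rw [h1, Finset.prod_neg]
  have : (-1 : ℝ) ^ (S.card + 1) * (-1) ^ S.card = -1 := by
    rw [pow_succ, mul_assoc, mul_comm (-1 : ℝ), ← mul_assoc, ← mul_pow]
    simp
  symm
  calc (-1 : ℝ) ^ (S.card + 1) * (sg (f fun i => !x i) * ((-1) ^ S.card * ∏ i ∈ S, sg (x i)))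
      = ((-1 : ℝ) ^ (S.card + 1) * (-1) ^ S.card) *
          (sg (f fun i => !x i) * ∏ i ∈ S, sg (x i)) := by ring
    _ = -sg (f fun i => !x i) * ∏ i ∈ S, sg (x i) := by rw [this]; ring

lemma lev1_dual (f : (ι → Bool) → Bool) : lev1 (dual f) = lev1 f := by
  unfold lev1 fh
  apply Finset.sum_congr rfl
  intro i _
  rw [coef_dual]
  simp

lemma fh_dual_empty (f : (ι → Bool) → Bool) : fh (dual f) ∅ = - fh f ∅ := by
  unfold fh
  rw [coef_dual]
  simp
  ring

end oddize

/-- (C) Any Boolean seed, through odd-ization: `(L + mean)^2 > d + 1`. -/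
theorem goal85_of_seed {ι : Type} [Fintype ι] [DecidableEq ι] (f : (ι → Bool) → Bool) (d : ℕ)
    (hdeg : ∀ S : Finset ι, d < S.card → coef f S = 0)
    (hpos : 0 < fh f ∅ + lev1 f) (hL : ((d + 1 : ℕ) : ℝ) < (fh f ∅ + lev1 f) ^ 2)
    (C : ℝ) (hC : 0 < C) : Goal85 C :=
  goal85_of_odd_seed (oddize f) (d + 1) (isOdd_oddize f) (coef_oddize_deg f d hdeg)
    (by rw [lev1_oddize]; exact hpos) (by rw [lev1_oddize]; exact hL) C hC

/-- (C') Any Boolean seed of odd degree bound `d`: `(L + mean)^2 > d`. -/
theorem goal85_of_seed_odd_deg {ι : Type} [Fintype ι] [DecidableEq ι] (f : (ι → Bool) → Bool)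
    (d : ℕ) (hd : Odd d) (hdeg : ∀ S : Finset ι, d < S.card → coef f S = 0)
    (hpos : 0 < fh f ∅ + lev1 f) (hL : (d : ℝ) < (fh f ∅ + lev1 f) ^ 2)
    (C : ℝ) (hC : 0 < C) : Goal85 C :=
  goal85_of_odd_seed (oddize f) d (isOdd_oddize f) (coef_oddize_deg_odd f d hd hdeg)
    (by rw [lev1_oddize]; exact hpos) (by rw [lev1_oddize]; exact hL) C hC

end Crest.Agent.S0085Aux
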