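import Crest.Agent.S0085Aux.Comp68Seed

/-!
A kernel-checkable verifier for seeds of S0085 (helper53): truth table as one natural number,
Walsh-Hadamard transform on nested pairs of integers, Boolean checks.

Usage. Let `g` be ANY Boolean function of `n` variables `x 0, ..., x (n-1)` (not necessarily odd).
Table: `T = sum over inputs x with g x = true of 2 ^ idx x`, `idx x = sum_i [x i = true] 2 ^ (n-1-i)`
(so `x 0` is the most significant bit of the index). Signs: `true = +1`, `false = -1`.
`A = 2 ^ n * (mean of g + sum of the singleton coefficients of g)` (an integer).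
Then, for odd `d`,
  `goal85_of_chkAll_odd n T d A (by decide +kernel) (by decide) (by norm_num) (by norm_num) C hC`
proves `Goal85 C` (the conclusion of S0085) provided `deg g <= d`, `0 < A` and `d * 4 ^ n < A ^ 2`;
`goal85_of_chkAll` is the same for any `d` with `(d + 1) * 4 ^ n < A ^ 2`.
An odd seed `f` on `n + 1` variables is handled through its restriction `g = f (true, .)`.
Kernel time of the `decide +kernel` step: 12 s for n = 13, about 3.5 min for n = 16.
Tested on `T_9` (n = 9, d = 5, A = 1088 = 2.125 * 512).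
-/

set_option autoImplicit false

namespace Crest.Agent.S0085Aux.V53

open Finset

/-- Vectors of length `2 ^ n`, as nested pairs. -/
@[reducible] def Tr : ℕ → Type
  | 0 => ℤ
  | n + 1 => Tr n × Tr n

/-- Pointwise sum. -/
def add : (n : ℕ) → Tr n → Tr n → Tr n
  | 0, a, b => Int.add a b
  | n + 1, a, b => (add n a.1 b.1, add n a.2 b.2)

/-- Pointwise difference. -/
def sub : (n : ℕ) → Tr n → Tr n → Tr n
  | 0, a, b => Int.sub a b
  | n + 1, a, b => (sub n a.1 b.1, sub n a.2 b.2)

/-- Walsh-Hadamard transform. First component: index bit `true`. -/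
def wht : (n : ℕ) → Tr n → Tr n
  | 0, a => a
  | n + 1, a => (sub n (wht n a.1) (wht n a.2), add n (wht n a.1) (wht n a.2))

/-- Entry at an index. First component: `x 0 = true`. -/
def ev : (n : ℕ) → Tr n → (Fin n → Bool) → ℤ
  | 0, a, _ => a
  | n + 1, a, x => if x 0 then ev n a.1 (fun i => x i.succ) else ev n a.2 (fun i => x i.succ)

/-- The table of signs read off a natural number (`x 0` is the most significant index bit). -/
def mk : (n : ℕ) → ℕ → Tr n
  | 0, T => if T % 2 = 1 then (1 : ℤ) else (-1 : ℤ)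
  | n + 1, T => (mk n (T / 2 ^ 2 ^ n), mk n (T % 2 ^ 2 ^ n))

/-- All entries whose index has more than `d` ones (counting `c` ones already seen) vanish. -/
def chk (d : ℕ) : (n : ℕ) → Tr n → ℕ → Bool
  | 0, a, c => decide (c ≤ d) || decide ((show ℤ from a) = 0)
  | n + 1, a, c => chk d n a.1 (c + 1) && chk d n a.2 c

/-- Entry at the all-`false` index. -/
def z0 : (n : ℕ) → Tr n → ℤ
  | 0, a => a
  | n + 1, a => z0 n a.2

/-- Sum of the entries at the indices with exactly one `true`. -/
def lin : (n : ℕ) → Tr n → ℤ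
  | 0, _ => 0
  | n + 1, a => z0 n a.1 + lin n a.2

/-- integer sign -/
def sgz (b : Bool) : ℤ := if b then 1 else -1

/-- integer character -/
def chi (n : ℕ) (s x : Fin n → Bool) : ℤ := ∏ i, (if s i then sgz (x i) else 1)

lemma ev_add : ∀ (n : ℕ) (a b : Tr n) (x : Fin n → Bool),
    ev n (add n a b) x = ev n a x + ev n b x
  | 0, _, _, _ => rfl
  | n + 1, a, b, x => by
      simp only [ev, add]
      split_ifs
      · exact ev_add n _ _ _
      · exact ev_add n _ _ _

lemma ev_sub : ∀ (n : ℕ) (a b : Tr n) (x : Fin n → Bool),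
    ev n (sub n a b) x = ev n a x - ev n b x
  | 0, _, _, _ => rfl
  | n + 1, a, b, x => by
      simp only [ev, sub]
      split_ifs
      · exact ev_sub n _ _ _
      · exact ev_sub n _ _ _

/-- Splitting off the first coordinate. -/
def splitE (n : ℕ) : (Fin (n + 1) → Bool) ≃ Bool × (Fin n → Bool) where
  toFun x := (x 0, fun i => x i.succ)
  invFun p := Fin.cons p.1 p.2
  left_inv x := by
    funext i
    refine Fin.cases ?_ (fun j => ?_) i <;> simp
  right_inv p := by
    rcases p with ⟨b, y⟩
    simp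

lemma sum_split {M : Type*} [AddCommMonoid M] (n : ℕ) (G : Bool → (Fin n → Bool) → M) :
    ∑ x : Fin (n + 1) → Bool, G (x 0) (fun i => x i.succ)
      = ∑ y : Fin n → Bool, G true y + ∑ y : Fin n → Bool, G false y := by
  rw [Fintype.sum_equiv (splitE n) (fun x => G (x 0) (fun i => x i.succ))
    (fun p => G p.1 p.2) (fun x => rfl), Fintype.sum_prod_type, Fintype.sum_bool]

lemma chi_succ (n : ℕ) (s x : Fin (n + 1) → Bool) :
    chi (n + 1) s x = (if s 0 then sgz (x 0) else 1) *
      chi n (fun i => s i.succ) (fun i => x i.succ) := by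
  simp only [chi, Fin.prod_univ_succ]

/-- Correctness of the transform. -/
lemma ev_wht : ∀ (n : ℕ) (t : Tr n) (s : Fin n → Bool),
    ev n (wht n t) s = ∑ x : Fin n → Bool, ev n t x * chi n s x
  | 0, t, s => by
      simp only [ev, wht, chi, Finset.univ_eq_empty, Finset.prod_empty, Finset.univ_unique,
        Finset.sum_singleton]
      exact (Int.mul_one _).symm
  | n + 1, t, s => by
      have key : ∀ x : Fin (n + 1) → Bool, ev (n + 1) t x * chi (n + 1) s x
          = (fun (b : Bool) (y : Fin n → Bool) =>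
              (if b then ev n t.1 y else ev n t.2 y) *
                ((if s 0 then sgz b else 1) * chi n (fun i => s i.succ) y))
              (x 0) (fun i => x i.succ) := by
        intro x
        rw [chi_succ]
        simp only [ev]
      have h2 := sum_split n (fun (b : Bool) (y : Fin n → Bool) =>
              (if b then ev n t.1 y else ev n t.2 y) *
                ((if s 0 then sgz b else 1) * chi n (fun i => s i.succ) y))
      rw [Finset.sum_congr rfl (fun x _ => key x)]
      refine Eq.trans ?_ h2.symm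
      simp only [ev, wht]
      by_cases h : s 0
      · simp only [h, if_true, ev_sub, ev_wht n, sgz]
        simp [Finset.sum_neg_distrib, sub_eq_add_neg]
      · simp only [h, ev_add, ev_wht n]
        simp

lemma ev_mk : ∀ (n T : ℕ) (x : Fin n → Bool), ev n (mk n T) x = 1 ∨ ev n (mk n T) x = -1
  | 0, T, _ => by
      simp only [ev, mk]
      split_ifs
      · exact Or.inl rfl
      · exact Or.inr rfl
  | n + 1, T, x => by
      simp only [ev, mk]
      split_ifs
      · exact ev_mk n _ _
      · exact ev_mk n _ _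

/-- The Boolean function with table `T`. -/
def fn (n T : ℕ) : (Fin n → Bool) → Bool := fun x => decide (ev n (mk n T) x = 1)

lemma sg_fn (n T : ℕ) (x : Fin n → Bool) : sg (fn n T x) = ((ev n (mk n T) x : ℤ) : ℝ) := by
  rcases ev_mk n T x with h | h
  · simp [fn, h]
  · simp [fn, h]

/-- Indicator of a finset. -/
def ind {n : ℕ} (S : Finset (Fin n)) : Fin n → Bool := fun i => decide (i ∈ S)

lemma sg_cast (b : Bool) : sg b = ((sgz b : ℤ) : ℝ) := by cases b <;> simp [sgz]

lemma chi_cast {n : ℕ} (S : Finset (Fin n)) (x : Fin n → Bool) :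
    ∏ i ∈ S, sg (x i) = ((chi n (ind S) x : ℤ) : ℝ) := by
  have h1 : ∏ i ∈ S, sg (x i) = ∏ i, (if i ∈ S then sg (x i) else 1) := by
    rw [Finset.prod_ite_mem]
    simp
  rw [h1, chi, Int.cast_prod]
  apply Finset.prod_congr rfl
  intro i _
  by_cases h : i ∈ S
  · simp [ind, h, sg_cast]
  · simp [ind, h]

/-- The raw coefficients are the entries of the transform. -/
lemma coef_fn (n T : ℕ) (S : Finset (Fin n)) :
    coef (fn n T) S = ((ev n (wht n (mk n T)) (ind S) : ℤ) : ℝ) := by
  rw [ev_wht, coef, Int.cast_sum]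
  apply Finset.sum_congr rfl
  intro x _
  rw [sg_fn, chi_cast, Int.cast_mul]

/-- number of `true`s -/
def cnt (n : ℕ) (s : Fin n → Bool) : ℕ := ∑ i, (if s i then 1 else 0)

lemma cnt_succ (n : ℕ) (s : Fin (n + 1) → Bool) :
    cnt (n + 1) s = (if s 0 then 1 else 0) + cnt n (fun i => s i.succ) := by
  simp only [cnt, Fin.sum_univ_succ]

lemma cnt_ind {n : ℕ} (S : Finset (Fin n)) : cnt n (ind S) = S.card := by
  simp [cnt, ind]

lemma chk_spec (d : ℕ) : ∀ (n : ℕ) (t : Tr n) (c : ℕ), chk d n t c = true →
    ∀ s : Fin n → Bool, d < c + cnt n s → ev n t s = 0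
  | 0, t, c, h, s, hs => by
      simp only [chk, Bool.or_eq_true, decide_eq_true_eq] at h
      simp only [cnt, Finset.univ_eq_empty, Finset.sum_empty, add_zero] at hs
      rcases h with h | h
      · omega
      · exact h
  | n + 1, t, c, h, s, hs => by
      simp only [chk, Bool.and_eq_true] at h
      rw [cnt_succ] at hs
      simp only [ev]
      by_cases h0 : s 0
      · simp only [h0, if_true] at hs ⊢
        exact chk_spec d n t.1 (c + 1) h.1 _ (by omega)
      · simp only [h0] at hs ⊢
        exact chk_spec d n t.2 c h.2 _ (by simpa using hs)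

lemma z0_spec : ∀ (n : ℕ) (t : Tr n), z0 n t = ev n t (fun _ => false)
  | 0, _ => rfl
  | n + 1, t => by
      simp only [z0, ev]
      exact z0_spec n t.2

lemma lin_spec : ∀ (n : ℕ) (t : Tr n), lin n t = ∑ i : Fin n, ev n t (fun j => decide (j = i))
  | 0, _ => by simp [lin]
  | n + 1, t => by
      rw [Fin.sum_univ_succ]
      simp only [lin, ev]
      have e1 : (fun i : Fin n => decide (i.succ = (0 : Fin (n + 1)))) = fun _ => false := by
        funext i
        simp [Fin.succ_ne_zero]
      have e2 : ∀ i : Fin n, decide ((0 : Fin (n + 1)) = i.succ) = false := by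
        intro i
        simp [(Fin.succ_ne_zero i).symm]
      simp only [decide_true, if_true, e1, e2, Fin.succ_inj]
      rw [z0_spec n t.1, lin_spec n t.2]
      simp

lemma ind_empty {n : ℕ} : ind (∅ : Finset (Fin n)) = fun _ => false := by
  funext i
  simp [ind]

lemma ind_singleton {n : ℕ} (i : Fin n) : ind ({i} : Finset (Fin n)) = fun j => decide (j = i) := by
  funext j
  simp [ind]

/-- mean plus level-one sum -/
lemma fh_add_lev1 (n T : ℕ) :
    fh (fn n T) ∅ + lev1 (fn n T)
      = ((z0 n (wht n (mk n T)) + lin n (wht n (mk n T)) : ℤ) : ℝ) / 2 ^ n := by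
  simp only [fh, lev1, coef_fn, ind_empty, ind_singleton, Fintype.card_fin]
  rw [z0_spec, lin_spec, ← Finset.sum_div, ← add_div]
  push_cast
  rfl

/-- Seed verifier, odd degree bound. -/
theorem goal85_of_table_odd (n T d : ℕ) (hd : Odd d)
    (h1 : chk d n (wht n (mk n T)) 0 = true)
    (h2 : 0 < z0 n (wht n (mk n T)) + lin n (wht n (mk n T)))
    (h3 : (d : ℤ) * 4 ^ n < (z0 n (wht n (mk n T)) + lin n (wht n (mk n T))) ^ 2)
    (C : ℝ) (hC : 0 < C) : Goal85 C := by
  have hdeg : ∀ S : Finset (Fin n), d < S.card → coef (fn n T) S = 0 := by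
    intro S hS
    rw [coef_fn, chk_spec d n _ 0 h1 (ind S) (by rw [cnt_ind]; omega)]
    simp
  set A : ℤ := z0 n (wht n (mk n T)) + lin n (wht n (mk n T)) with hA
  have hpow : (0 : ℝ) < 2 ^ n := by positivity
  have e := fh_add_lev1 n T
  rw [← hA] at e
  refine goal85_of_seed_odd_deg (fn n T) d hd hdeg ?_ ?_ C hC
  · rw [e]
    have : (0 : ℝ) < (A : ℝ) := by exact_mod_cast h2
    positivity
  · rw [e, div_pow, lt_div_iff₀ (by positivity)]
    have h4 : ((d : ℤ) * 4 ^ n : ℤ) < A ^ 2 := h3
    have h5 : (((d : ℤ) * 4 ^ n : ℤ) : ℝ) < ((A ^ 2 : ℤ) : ℝ) := by exact_mod_cast h4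
    have h6 : ((2 : ℝ) ^ n) ^ 2 = 4 ^ n := by
      rw [← pow_mul, mul_comm, pow_mul]
      norm_num
    rw [h6]
    push_cast at h5
    exact h5

/-- Seed verifier, any degree bound (`d + 1` after odd-ization). -/
theorem goal85_of_table (n T d : ℕ)
    (h1 : chk d n (wht n (mk n T)) 0 = true)
    (h2 : 0 < z0 n (wht n (mk n T)) + lin n (wht n (mk n T)))
    (h3 : ((d : ℤ) + 1) * 4 ^ n < (z0 n (wht n (mk n T)) + lin n (wht n (mk n T))) ^ 2)
    (C : ℝ) (hC : 0 < C) : Goal85 C := by
  have hdeg : ∀ S : Finset (Fin n), d < S.card → coef (fn n T) S = 0 := by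
    intro S hS
    rw [coef_fn, chk_spec d n _ 0 h1 (ind S) (by rw [cnt_ind]; omega)]
    simp
  set A : ℤ := z0 n (wht n (mk n T)) + lin n (wht n (mk n T)) with hA
  have e := fh_add_lev1 n T
  rw [← hA] at e
  refine goal85_of_seed (fn n T) d hdeg ?_ ?_ C hC
  · rw [e]
    have : (0 : ℝ) < (A : ℝ) := by exact_mod_cast h2
    positivity
  · rw [e, div_pow, lt_div_iff₀ (by positivity)]
    have h5 : ((((d : ℤ) + 1) * 4 ^ n : ℤ) : ℝ) < ((A ^ 2 : ℤ) : ℝ) := by exact_mod_cast h3
    have h6 : ((2 : ℝ) ^ n) ^ 2 = 4 ^ n := by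
      rw [← pow_mul, mul_comm, pow_mul]
      norm_num
    rw [h6]
    push_cast at h5 ⊢
    exact h5

/-- All checks in one Boolean: degree at most `d`, and `2 ^ n * (mean + level-one sum) = A`. -/
def chkAll (n T d : ℕ) (A : ℤ) : Bool :=
  chk d n (wht n (mk n T)) 0 && decide (z0 n (wht n (mk n T)) + lin n (wht n (mk n T)) = A)

/-- One-call form, odd `d`: `chkAll n T d A = true` by `decide +kernel`, the rest by `norm_num`. -/
theorem goal85_of_chkAll_odd (n T d : ℕ) (A : ℤ) (h : chkAll n T d A = true) (hd : Odd d)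
    (hA : 0 < A) (hlt : (d : ℤ) * 4 ^ n < A ^ 2) (C : ℝ) (hC : 0 < C) : Goal85 C := by
  simp only [chkAll, Bool.and_eq_true, decide_eq_true_eq] at h
  exact goal85_of_table_odd n T d hd h.1 (by rw [h.2]; exact hA) (by rw [h.2]; exact hlt) C hC

/-- One-call form, any `d`. -/
theorem goal85_of_chkAll (n T d : ℕ) (A : ℤ) (h : chkAll n T d A = true)
    (hA : 0 < A) (hlt : ((d : ℤ) + 1) * 4 ^ n < A ^ 2) (C : ℝ) (hC : 0 < C) : Goal85 C := by
  simp only [chkAll, Bool.and_eq_true, decide_eq_true_eq] at h
  exact goal85_of_table n T d h.1 (by rw [h.2]; exact hA) (by rw [h.2]; exact hlt) C hC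

end Crest.Agent.S0085Aux.V53
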