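import Crest.Agent.S0085Aux.Check68

/-!
The weighted ("lagged recursion") seed criterion for S0085 (helper68; criterion due to helper78, team note 536).
-/

set_option autoImplicit false

namespace Crest.Agent.S0085Aux

open Finset

theorem HasOdd.mono {L : ℝ} {d d' : ℕ} (h : HasOdd L d) (hd : d ≤ d') : HasOdd L d' := by
  obtain ⟨ι, i1, i2, f, h1, h2, h3⟩ := h
  exact ⟨ι, i1, i2, f, h1, fun S hS => h2 S (lt_of_le_of_lt hd hS), h3⟩

theorem hasOdd_dictator : HasOdd 1 1 := by
  refine ⟨Unit, inferInstance, inferInstance, fun x => x (), ?_, ?_, ?_⟩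
  · intro x; rfl
  · intro S hS
    exfalso
    have : S.card ≤ 1 := by
      calc S.card ≤ (Finset.univ : Finset Unit).card := Finset.card_le_univ S
        _ = 1 := by simp
    omega
  · unfold lev1 fh coef
    have h := Equiv.sum_comp (Equiv.funUnique Unit Bool).symm
      (fun x : Unit → Bool => sg (x ()) * ∏ i ∈ ({()} : Finset Unit), sg (x i))
    simp only [Finset.univ_unique, Finset.sum_singleton, Fintype.card_unit, pow_one]
    have h2 : ∑ x : Unit → Bool, sg (x ()) * ∏ i ∈ ({default} : Finset Unit), sg (x i) = 2 := by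
      have h3 : ∀ x : Unit → Bool, sg (x ()) * ∏ i ∈ ({default} : Finset Unit), sg (x i) = 1 := by
        intro x
        rw [Finset.prod_singleton]
        exact sg_mul_self _
      simp only [h3]
      simp
    rw [h2]
    norm_num

/-- From a weighted seed to an ordinary `HasOdd` witness with `t < L ^ 2`. -/
theorem hasOdd_of_weighted {ι : Type} [Fintype ι] [DecidableEq ι] (f : (ι → Bool) → Bool)
    (hodd : IsOdd f) (c : ι → ℕ) (D : ℕ) (hc1 : ∀ i, 1 ≤ c i) (hcD : ∀ i, c i < D)
    (hD : ∀ S : Finset ι, coef f S ≠ 0 → ∑ i ∈ S, c i ≤ D)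
    (ha : ∀ i, 0 ≤ fh f {i})
    (hW : Real.sqrt D < ∑ i, fh f {i} * Real.sqrt (c i)) :
    ∃ (L : ℝ) (t : ℕ), HasOdd L t ∧ 0 < L ∧ (t : ℝ) < L ^ 2 := by
  set A : ℝ := ∑ i, fh f {i} * Real.sqrt (c i) with hA
  have hne : Nonempty ι := by
    by_contra hcon
    rw [not_nonempty_iff] at hcon
    have : A = 0 := by rw [hA]; simp
    rw [this] at hW
    exact absurd hW (not_lt.mpr (Real.sqrt_nonneg _))
  obtain ⟨i0⟩ := hne
  have hD2 : 2 ≤ D := by have := hc1 i0; have := hcD i0; omega
  have hDpos : 0 < D := by omega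
  have hDr : (2 : ℝ) ≤ D := by exact_mod_cast hD2
  have hsD : 0 < Real.sqrt D := Real.sqrt_pos.mpr (by linarith)
  set r : ℝ := A / Real.sqrt D with hr
  have hr1 : 1 < r := by rw [hr, one_lt_div hsD]; exact hW
  have hr0 : 0 < r := by linarith
  set q : ℝ := Real.sqrt r with hq
  have hq1 : 1 < q := by
    rw [hq]; exact Real.lt_sqrt_of_sq_lt (by simpa using hr1)
  have hqq : q * q = r := Real.mul_self_sqrt hr0.le
  have hlogD : 0 < Real.log D := Real.log_pos (by linarith)
  have hlogr : 0 < Real.log r := Real.log_pos hr1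
  set ε : ℝ := min (1 / 2) (Real.log r / (2 * Real.log D)) with hε
  have hε0 : 0 < ε := by
    rw [hε]; exact lt_min (by norm_num) (by positivity)
  have hε2 : ε ≤ 1 / 2 := min_le_left _ _
  have hDε : (D : ℝ) ^ ε ≤ q := by
    calc (D : ℝ) ^ ε ≤ (D : ℝ) ^ (Real.log r / (2 * Real.log D)) :=
          Real.rpow_le_rpow_of_exponent_le (by linarith) (min_le_right _ _)
      _ = q := by
          rw [hq, Real.sqrt_eq_rpow, Real.rpow_def_of_pos (by linarith), Real.rpow_def_of_pos hr0]
          congr 1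
          field_simp
  obtain ⟨s0, hs0⟩ := exists_nat_gt (1 / (q - 1))
  have hq1' : 0 < q - 1 := by linarith
  have hs0pos : (0 : ℝ) < s0 := lt_trans (by positivity) hs0
  have hs0n : 1 ≤ s0 := by exact_mod_cast hs0pos
  have hs0q : 1 + 1 / (s0 : ℝ) ≤ q := by
    have : 1 / (s0 : ℝ) < q - 1 := by
      rw [div_lt_iff₀ hs0pos]
      rw [div_lt_iff₀ hq1'] at hs0
      linarith
    linarith
  set α : ℝ := 1 / 2 + ε with hα
  have hα0 : 0 < α := by rw [hα]; linarith
  have hα1 : α ≤ 1 := by rw [hα]; linarith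
  have hαh : 1 / 2 ≤ α := by rw [hα]; linarith
  set T0 : ℕ := D * s0 with hT0
  have hT0pos : (0 : ℝ) < T0 := by
    have : 0 < T0 := Nat.mul_pos hDpos hs0n
    exact_mod_cast this
  set κ : ℝ := ((T0 : ℝ) ^ α)⁻¹ with hκ
  have hκ0 : 0 < κ := by rw [hκ]; positivity
  -- the power law
  have P : ∀ t : ℕ, 1 ≤ t → ∃ L : ℝ, HasOdd L t ∧ κ * (t : ℝ) ^ α ≤ L := by
    intro t
    induction t using Nat.strong_induction_on with
    | _ t ih =>
      intro ht
      by_cases hcase : t ≤ T0
      · refine ⟨1, hasOdd_dictator.mono ht, ?_⟩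
        rw [hκ, inv_mul_le_iff₀ (by positivity), mul_one]
        exact Real.rpow_le_rpow (by positivity) (by exact_mod_cast hcase) hα0.le
      · rw [not_le] at hcase
        set s : ℕ := t / D with hs
        have hs_le : D * s ≤ t := Nat.mul_div_le t D
        have hs_lt : t < D * (s + 1) := Nat.lt_mul_div_succ t hDpos
        have hs0s : s0 ≤ s := by
          rw [hs, Nat.le_div_iff_mul_le hDpos, mul_comm]
          exact hcase.le
        have hs1 : 1 ≤ s := le_trans hs0n hs0s
        have hsr : (0 : ℝ) < s := by exact_mod_cast hs1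
        have key : ∀ i, ∃ L : ℝ, HasOdd L (c i * s) ∧ κ * ((c i * s : ℕ) : ℝ) ^ α ≤ L := by
          intro i
          apply ih (c i * s)
          · have h1 := hcD i
            calc c i * s < D * s := Nat.mul_lt_mul_of_pos_right h1 hs1
              _ ≤ t := hs_le
          · exact Nat.mul_pos (hc1 i) hs1
        choose Ls hL1 hL2 using key
        refine ⟨∑ i, fh f {i} * Ls i,
          HasOdd.compose f hodd Ls (fun i => c i * s) t hL1 ?_, ?_⟩
        · intro S hS
          calc ∑ i ∈ S, c i * s = (∑ i ∈ S, c i) * s := (Finset.sum_mul _ _ _).symm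
            _ ≤ D * s := Nat.mul_le_mul_right s (hD S hS)
            _ ≤ t := hs_le
        · have h1 : ∀ i, fh f {i} * (κ * (s : ℝ) ^ α * Real.sqrt (c i)) ≤ fh f {i} * Ls i := by
            intro i
            apply mul_le_mul_of_nonneg_left _ (ha i)
            refine le_trans ?_ (hL2 i)
            have hci : (1 : ℝ) ≤ c i := by exact_mod_cast hc1 i
            have e1 : ((c i * s : ℕ) : ℝ) ^ α = (c i : ℝ) ^ α * (s : ℝ) ^ α := by
              push_cast
              exact Real.mul_rpow (by linarith) hsr.le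
            have e2 : Real.sqrt (c i) ≤ (c i : ℝ) ^ α := by
              rw [Real.sqrt_eq_rpow]
              exact Real.rpow_le_rpow_of_exponent_le hci hαh
            rw [e1]
            have e3 : 0 ≤ κ * (s : ℝ) ^ α := by positivity
            nlinarith [mul_le_mul_of_nonneg_left e2 e3]
          have h2 : ∑ i, fh f {i} * (κ * (s : ℝ) ^ α * Real.sqrt (c i)) = κ * (s : ℝ) ^ α * A := by
            rw [hA, Finset.mul_sum]
            apply Finset.sum_congr rfl
            intro i _
            ring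
          have h3 : (t : ℝ) ^ α ≤ (s : ℝ) ^ α * A := by
            have t1 : (t : ℝ) ≤ (D : ℝ) * ((s : ℝ) * (1 + 1 / (s : ℝ))) := by
              have : (t : ℝ) ≤ (D : ℝ) * ((s : ℝ) + 1) := by exact_mod_cast hs_lt.le
              have e : (s : ℝ) * (1 + 1 / (s : ℝ)) = (s : ℝ) + 1 := by field_simp
              rw [e]; exact this
            have b0 : (1 : ℝ) ≤ 1 + 1 / (s : ℝ) := by
              have : 0 ≤ 1 / (s : ℝ) := by positivity
              linarith
            have t2 : (t : ℝ) ^ α ≤ ((D : ℝ) * ((s : ℝ) * (1 + 1 / (s : ℝ)))) ^ α :=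
              Real.rpow_le_rpow (by positivity) t1 hα0.le
            have t3 : ((D : ℝ) * ((s : ℝ) * (1 + 1 / (s : ℝ)))) ^ α
                = (D : ℝ) ^ α * ((s : ℝ) ^ α * (1 + 1 / (s : ℝ)) ^ α) := by
              rw [Real.mul_rpow (by positivity) (by positivity), Real.mul_rpow hsr.le (by linarith)]
            have t4 : (D : ℝ) ^ α ≤ Real.sqrt D * q := by
              rw [hα, Real.rpow_add (by linarith), ← Real.sqrt_eq_rpow]
              exact mul_le_mul_of_nonneg_left hDε hsD.le
            have t5 : (1 + 1 / (s : ℝ)) ^ α ≤ q := by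
              calc (1 + 1 / (s : ℝ)) ^ α ≤ (1 + 1 / (s : ℝ)) ^ (1 : ℝ) :=
                    Real.rpow_le_rpow_of_exponent_le b0 hα1
                _ = 1 + 1 / (s : ℝ) := Real.rpow_one _
                _ ≤ 1 + 1 / (s0 : ℝ) := by
                    have : 1 / (s : ℝ) ≤ 1 / (s0 : ℝ) :=
                      one_div_le_one_div_of_le hs0pos (by exact_mod_cast hs0s)
                    linarith
                _ ≤ q := hs0q
            have hAeq : A = Real.sqrt D * (q * q) := by
              rw [hqq, hr]; field_simp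
            have p1 : 0 ≤ (s : ℝ) ^ α := by positivity
            have p2 : 0 ≤ (1 + 1 / (s : ℝ)) ^ α := by positivity
            have p3 : 0 ≤ (D : ℝ) ^ α := by positivity
            calc (t : ℝ) ^ α ≤ (D : ℝ) ^ α * ((s : ℝ) ^ α * (1 + 1 / (s : ℝ)) ^ α) := by
                  rw [← t3]; exact t2
              _ ≤ (Real.sqrt D * q) * ((s : ℝ) ^ α * q) := by
                  apply mul_le_mul t4 (mul_le_mul_of_nonneg_left t5 p1) (by positivity)
                    (by positivity)
              _ = (s : ℝ) ^ α * A := by rw [hAeq]; ring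
          calc κ * (t : ℝ) ^ α ≤ κ * ((s : ℝ) ^ α * A) := mul_le_mul_of_nonneg_left h3 hκ0.le
            _ = ∑ i, fh f {i} * (κ * (s : ℝ) ^ α * Real.sqrt (c i)) := by rw [h2]; ring
            _ ≤ ∑ i, fh f {i} * Ls i := Finset.sum_le_sum (fun i _ => h1 i)
  -- choose `t` large
  obtain ⟨t, ht⟩ := exists_nat_gt (max 1 ((1 / κ) ^ (1 / ε)))
  have ht1 : (1 : ℝ) < t := lt_of_le_of_lt (le_max_left _ _) ht
  have ht2 : (1 / κ) ^ (1 / ε) < t := lt_of_le_of_lt (le_max_right _ _) ht
  have ht1n : 1 ≤ t := by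
    have : (1 : ℕ) < t := by exact_mod_cast ht1
    omega
  obtain ⟨L, hL, hLb⟩ := P t ht1n
  have htpos : (0 : ℝ) < t := by linarith
  have h5 : 1 / κ < (t : ℝ) ^ ε := by
    have h6 : ((1 / κ) ^ (1 / ε)) ^ ε < (t : ℝ) ^ ε :=
      Real.rpow_lt_rpow (by positivity) ht2 hε0
    rw [← Real.rpow_mul (by positivity), one_div_mul_cancel hε0.ne', Real.rpow_one] at h6
    exact h6
  have h7 : Real.sqrt t < L := by
    refine lt_of_lt_of_le ?_ hLb
    rw [hα, Real.rpow_add htpos, ← Real.sqrt_eq_rpow]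
    have h8 : 1 < κ * (t : ℝ) ^ ε := by
      rw [div_lt_iff₀ hκ0] at h5
      linarith
    have h9 : 0 < Real.sqrt t := Real.sqrt_pos.mpr htpos
    nlinarith
  have hLpos : 0 < L := lt_of_le_of_lt (Real.sqrt_nonneg _) h7
  exact ⟨L, t, hL, hLpos, (Real.sqrt_lt' hLpos).mp h7⟩

/-- **Weighted seed criterion.** -/
theorem goal85_of_weighted_seed {ι : Type} [Fintype ι] [DecidableEq ι] (f : (ι → Bool) → Bool)
    (hodd : IsOdd f) (c : ι → ℕ) (D : ℕ) (hc1 : ∀ i, 1 ≤ c i) (hcD : ∀ i, c i < D)
    (hD : ∀ S : Finset ι, coef f S ≠ 0 → ∑ i ∈ S, c i ≤ D)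
    (ha : ∀ i, 0 ≤ fh f {i})
    (hW : Real.sqrt D < ∑ i, fh f {i} * Real.sqrt (c i)) (C : ℝ) (hC : 0 < C) : Goal85 C := by
  obtain ⟨L, t, h1, h2, h3⟩ := hasOdd_of_weighted f hodd c D hc1 hcD hD ha hW
  exact S0085_of_hasOdd h1 h2 h3 C hC

namespace MP

/-- all monomials have cost at most `D` (costs `c`) -/
def wdegLE : (n : ℕ) → MP n → (Fin n → ℕ) → ℕ → Bool
  | 0, _, _, _ => true
  | n + 1, p, c, D => wdegLE n p.1 (Fin.tail c) D &&
      (if c 0 ≤ D then wdegLE n p.2 (Fin.tail c) (D - c 0) else isZero n p.2)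

/-- cost of an indicator vector -/
def wcnt (n : ℕ) (c : Fin n → ℕ) (τ : Fin n → Bool) : ℕ := ∑ i, (if τ i then c i else 0)

lemma wcnt_succ (n : ℕ) (c : Fin (n + 1) → ℕ) (τ : Fin (n + 1) → Bool) :
    wcnt (n + 1) c τ = (if τ 0 then c 0 else 0) + wcnt n (Fin.tail c) (Fin.tail τ) := by
  unfold wcnt
  rw [Fin.sum_univ_succ]
  rfl

lemma charsum_wdegLE (n : ℕ) (p : MP n) (c : Fin n → ℕ) (D : ℕ) (h : wdegLE n p c D = true)
    (τ : Fin n → Bool) (hτ : D < wcnt n c τ) : ∑ x, eval n p x * chi n τ x = 0 := by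
  induction n generalizing D with
  | zero => simp [wcnt] at hτ
  | succ n ih =>
    rw [charsum_succ]
    rw [wcnt_succ] at hτ
    simp only [wdegLE, Bool.and_eq_true] at h
    cases hτ0 : τ 0
    · simp only [hτ0, Bool.false_eq_true, if_false, zero_add] at hτ ⊢
      rw [ih _ _ _ h.1 _ hτ]
      simp
    · simp only [hτ0, if_true] at hτ ⊢
      by_cases hc : c 0 ≤ D
      · have h2 := h.2
        rw [if_pos hc] at h2
        rw [ih _ _ _ h2 _ (by omega)]
        simp
      · have h2 := h.2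
        rw [if_neg hc] at h2
        simp [eval_isZero _ _ h2]

/-- the linear coefficients -/
def lc : (n : ℕ) → MP n → Fin n → ℤ
  | 0, _, i => i.elim0
  | n + 1, p, i => Fin.cases (c0 n p.2) (fun j => lc n p.1 j) i

lemma sum_lc (n : ℕ) (p : MP n) (i : Fin n) :
    ∑ x, eval n p x * sgz (x i) = 2 ^ n * lc n p i := by
  induction n with
  | zero => exact i.elim0
  | succ n ih =>
    refine Fin.cases ?_ (fun j => ?_) i
    · have h0 : lc (n + 1) p 0 = c0 n p.2 := rfl
      have h1 : ∑ x, eval (n + 1) p x * sgz (x 0) = 2 * ∑ t, eval n p.2 t := by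
        rw [sum_cons, Fintype.sum_bool, ← Finset.sum_add_distrib, Finset.mul_sum]
        apply Finset.sum_congr rfl
        intro t _
        simp only [eval_cons, Fin.cons_zero, sgz_true, sgz_false]
        ring
      rw [h0, h1, sum_eval]
      ring
    · have h0 : lc (n + 1) p j.succ = lc n p.1 j := rfl
      have h1 : ∑ x, eval (n + 1) p x * sgz (x j.succ) = 2 * ∑ t, eval n p.1 t * sgz (t j) := by
        rw [sum_cons, Fintype.sum_bool, ← Finset.sum_add_distrib, Finset.mul_sum]
        apply Finset.sum_congr rfl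
        intro t _
        simp only [eval_cons, Fin.cons_succ, sgz_true, sgz_false]
        ring
      rw [h0, h1, ih]
      ring

/-- all linear coefficients are nonnegative -/
def linNonneg : (n : ℕ) → MP n → Bool
  | 0, _ => true
  | n + 1, p => linNonneg n p.1 && decide (0 ≤ c0 n p.2)

lemma linNonneg_sound (n : ℕ) (p : MP n) (h : linNonneg n p = true) (i : Fin n) :
    0 ≤ lc n p i := by
  induction n with
  | zero => exact i.elim0
  | succ n ih =>
    simp only [linNonneg, Bool.and_eq_true, decide_eq_true_eq] at h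
    refine Fin.cases ?_ (fun j => ?_) i
    · exact h.2
    · exact ih _ h.1 j

/-- weighted sum of the linear coefficients -/
def wlin : (n : ℕ) → MP n → (Fin n → ℕ) → ℤ
  | 0, _, _ => 0
  | n + 1, p, w => wlin n p.1 (Fin.tail w) + c0 n p.2 * (w 0 : ℤ)

lemma wlin_eq (n : ℕ) (p : MP n) (w : Fin n → ℕ) :
    wlin n p w = ∑ i, lc n p i * (w i : ℤ) := by
  induction n with
  | zero => simp [wlin]
  | succ n ih =>
    rw [Fin.sum_univ_succ]
    simp only [wlin, ih]
    have h0 : lc (n + 1) p 0 = c0 n p.2 := rfl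
    have h1 : ∀ j : Fin n, lc (n + 1) p j.succ = lc n p.1 j := fun _ => rfl
    simp only [h0, h1]
    rw [add_comm]
    rfl

lemma fh_toFun (n : ℕ) (p : MP n) (N : ℤ) (hN : 0 < N) (h : check n p N = true) (i : Fin n) :
    fh (toFun n p) {i} = (lc n p i : ℝ) / N := by
  have hN' : (N : ℝ) ≠ 0 := by exact_mod_cast hN.ne'
  unfold fh
  have h1 : coef (toFun n p) {i} = ((∑ x, eval n p x * sgz (x i) : ℤ) : ℝ) / N := by
    unfold coef
    push_cast
    rw [Finset.sum_div]
    apply Finset.sum_congr rfl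
    intro x _
    rw [sg_toFun n p N hN h, Finset.prod_singleton, sg_eq_sgz]
    ring
  rw [h1, sum_lc, Fintype.card_fin]
  push_cast
  field_simp

lemma sum_eq_wcnt (n : ℕ) (c : Fin n → ℕ) (S : Finset (Fin n)) :
    ∑ i ∈ S, c i = wcnt n c (fun i => decide (i ∈ S)) := by
  unfold wcnt
  simp only [decide_eq_true_eq]
  rw [Finset.sum_ite_mem]
  simp

end MP

/-- **Weighted seed verifier.**  `lo i / M` is a lower bound for `√(c i)`, `hi / M` an upper bound for
`√D`; all hypotheses are closed decidable statements. -/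
theorem goal85_of_checked_weighted_seed (n : ℕ) (p : MP n) (N : ℤ) (c lo : Fin n → ℕ) (D M hi : ℕ)
    (hN : 0 < N) (hM : 0 < M)
    (hcheck : MP.check n p N = true) (hpar : MP.par n p true = true)
    (hdeg : MP.wdegLE n p c D = true) (hnn : MP.linNonneg n p = true)
    (hc1 : ∀ i, 1 ≤ c i) (hcD : ∀ i, c i < D)
    (hlo : ∀ i, lo i ^ 2 ≤ c i * M ^ 2) (hhi : D * M ^ 2 ≤ hi ^ 2)
    (hsum : (hi : ℤ) * N < MP.wlin n p lo) (C : ℝ) (hC : 0 < C) : Goal85 C := by
  have hN' : (0 : ℝ) < N := by exact_mod_cast hN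
  have hM' : (0 : ℝ) < M := by exact_mod_cast hM
  refine goal85_of_weighted_seed (MP.toFun n p) (MP.isOdd_toFun n p N hN hcheck hpar) c D hc1 hcD
    ?_ ?_ ?_ C hC
  · intro S hS
    by_contra hcon
    rw [not_le] at hcon
    apply hS
    rw [MP.coef_toFun n p N hN hcheck,
      MP.charsum_wdegLE n p c D hdeg _ (by rwa [← MP.sum_eq_wcnt])]
    simp
  · intro i
    rw [MP.fh_toFun n p N hN hcheck]
    have : (0 : ℝ) ≤ MP.lc n p i := by exact_mod_cast MP.linNonneg_sound n p hnn i
    positivity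
  · have h1 : Real.sqrt D ≤ (hi : ℝ) / M := by
      rw [Real.sqrt_le_left (by positivity), div_pow, le_div_iff₀ (by positivity)]
      exact_mod_cast hhi
    have h2 : ∀ i, (lo i : ℝ) / M ≤ Real.sqrt (c i) := by
      intro i
      apply Real.le_sqrt_of_sq_le
      rw [div_pow, div_le_iff₀ (by positivity)]
      exact_mod_cast hlo i
    have h3 : ((hi : ℝ) * N) < ∑ i, (MP.lc n p i : ℝ) * (lo i : ℝ) := by
      have := hsum
      rw [MP.wlin_eq] at this
      exact_mod_cast this
    calc Real.sqrt D ≤ (hi : ℝ) / M := h1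
      _ = ((hi : ℝ) * N) / (N * M) := by field_simp
      _ < (∑ i, (MP.lc n p i : ℝ) * (lo i : ℝ)) / (N * M) := by
          apply div_lt_div_of_pos_right h3 (by positivity)
      _ = ∑ i, (MP.lc n p i : ℝ) / N * ((lo i : ℝ) / M) := by
          rw [Finset.sum_div]
          apply Finset.sum_congr rfl
          intro i _
          field_simp
      _ ≤ ∑ i, fh (MP.toFun n p) {i} * Real.sqrt (c i) := by
          apply Finset.sum_le_sum
          intro i _
          rw [MP.fh_toFun n p N hN hcheck]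
          apply mul_le_mul_of_nonneg_left (h2 i)
          have : (0 : ℝ) ≤ MP.lc n p i := by exact_mod_cast MP.linNonneg_sound n p hnn i
          positivity

end Crest.Agent.S0085Aux
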